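import Vale.Agent.P038.H923.Row

/-!
# Closed neighbourhoods, the function `e`, property (G), counting
-/

namespace Vale.Agent.P038.H923

open Finset
open Classical

variable {V : Type*} [Fintype V]

/-- Closed out-neighbourhood of a set. -/
noncomputable def cl (r : V → V → Prop) (S : Finset V) : Finset V :=
  univ.filter fun y => ∃ x ∈ S, x = y ∨ r x y

/-- Closed in-neighbourhood of a vertex. -/
noncomputable def nb (r : V → V → Prop) (b : V) : Finset V :=
  univ.filter fun a => a = b ∨ r a b

theorem mem_cl {r : V → V → Prop} {S : Finset V} {y : V} :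
    y ∈ cl r S ↔ ∃ x ∈ S, x = y ∨ r x y := by
  simp [cl]

theorem mem_nb {r : V → V → Prop} {b a : V} : a ∈ nb r b ↔ a = b ∨ r a b := by
  simp [nb]

theorem mem_cl' {r : V → V → Prop} {S : Finset V} {y : V} :
    y ∈ cl r S ↔ ∃ x ∈ nb r y, x ∈ S := by
  simp only [mem_cl, mem_nb]
  constructor
  · rintro ⟨x, h1, h2⟩; exact ⟨x, h2, h1⟩
  · rintro ⟨x, h1, h2⟩; exact ⟨x, h2, h1⟩

theorem subset_cl (r : V → V → Prop) (S : Finset V) : S ⊆ cl r S :=
  fun x hx => mem_cl.2 ⟨x, hx, Or.inl rfl⟩

theorem cl_mono {r : V → V → Prop} {S T : Finset V} (h : S ⊆ T) : cl r S ⊆ cl r T := by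
  intro y hy
  obtain ⟨x, hx, hxy⟩ := mem_cl.1 hy
  exact mem_cl.2 ⟨x, h hx, hxy⟩

theorem cl_union (r : V → V → Prop) (S T : Finset V) : cl r (S ∪ T) = cl r S ∪ cl r T := by
  ext y
  simp only [mem_cl, mem_union]
  constructor
  · rintro ⟨x, hx | hx, h⟩
    · exact Or.inl ⟨x, hx, h⟩
    · exact Or.inr ⟨x, hx, h⟩
  · rintro (⟨x, hx, h⟩ | ⟨x, hx, h⟩)
    · exact ⟨x, Or.inl hx, h⟩
    · exact ⟨x, Or.inr hx, h⟩

/-- The size of the outer boundary. -/
noncomputable def ee (r : V → V → Prop) (S : Finset V) : ℤ := ((cl r S).card : ℤ) - S.card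

theorem ee_sub (r : V → V → Prop) (S T : Finset V) :
    ee r (S ∪ T) + ee r (S ∩ T) ≤ ee r S + ee r T := by
  have h1 : (((S ∪ T).card : ℤ)) + (S ∩ T).card = S.card + T.card := by
    exact_mod_cast card_union_add_card_inter S T
  have h2 : (((cl r S ∪ cl r T).card : ℤ)) + (cl r S ∩ cl r T).card
      = (cl r S).card + (cl r T).card := by
    exact_mod_cast card_union_add_card_inter (cl r S) (cl r T)
  have h3 : ((cl r (S ∩ T)).card : ℤ) ≤ (cl r S ∩ cl r T).card := by
    exact_mod_cast card_le_card
      (subset_inter (cl_mono inter_subset_left) (cl_mono inter_subset_right))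
  unfold ee
  rw [cl_union]
  linarith

theorem ee_nonneg (r : V → V → Prop) (S : Finset V) : 0 ≤ ee r S := by
  have : (S.card : ℤ) ≤ (cl r S).card := by exact_mod_cast card_le_card (subset_cl r S)
  unfold ee
  linarith

/-! ### Property (G) -/

/-- `r` is a counterexample to the second neighbourhood conjecture. -/
def CE (r : V → V → Prop) : Prop := ∀ v, ee r (cl r {v}) < ee r {v}

theorem goodG {r : V → V → Prop} (hr : CE r) (hmin : ∀ r' : V → V → Prop,
    (∀ u v, r' u v → r u v) → CE r' → ∀ u v, r u v → r' u v) (X : Finset V)
    (hX : cl r X ≠ X) : ee r (cl r X) < ee r X := by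
  set L := cl r X \ X with hL
  set d : Finset V → ℤ := fun T => ((cl r T \ X).card : ℤ) - 2 * T.card with hd
  -- every minimiser of `d` below `L` is `L`
  have key : ∀ T, T ⊆ L → (∀ T', T' ⊆ L → d T ≤ d T') → T = L := by
    intro T hTL hT
    set r' : V → V → Prop := fun u v => r u v ∧ (u ∈ X → v ∈ X ∪ T) with hr'
    have hCE : CE r' := by
      intro v
      have hsub : ∀ S, cl r' S ⊆ cl r S := by
        intro S y hy
        obtain ⟨x, hx, h⟩ := mem_cl.1 hy
        exact mem_cl.2 ⟨x, hx, h.imp id fun h => h.1⟩
      have hv := hr v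
      unfold ee at hv ⊢
      have hcv : (({v} : Finset V).card : ℤ) = 1 := by simp
      by_cases hvX : v ∈ X
      · set D := cl r {v} \ (X ∪ T) with hD
        have hDL : D ⊆ L := by
          intro y hy
          rw [hD, mem_sdiff, mem_union, not_or] at hy
          rw [hL, mem_sdiff]
          exact ⟨cl_mono (singleton_subset_iff.2 hvX) hy.1, hy.2.1⟩
        have hDT : Disjoint T D := by
          rw [disjoint_left]
          intro y hy hy'
          rw [hD, mem_sdiff, mem_union, not_or] at hy'
          exact hy'.2.2 hy
        have hcl1 : cl r' {v} = cl r {v} \ D := by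
          ext y
          simp only [mem_cl, mem_sdiff, hD, mem_union, mem_singleton, exists_eq_left, hr']
          constructor
          · rintro (rfl | ⟨h1, h2⟩)
            · exact ⟨Or.inl rfl, fun h => h.2 (Or.inl hvX)⟩
            · have := h2 hvX
              exact ⟨Or.inr h1, fun h => h.2 this⟩
          · rintro ⟨h1 | h1, h2⟩
            · exact Or.inl h1
            · right
              refine ⟨h1, fun _ => ?_⟩
              by_contra h3
              exact h2 ⟨Or.inr h1, h3⟩
        have hDsub : D ⊆ cl r {v} := sdiff_subset
        have hcard1 : ((cl r' {v}).card : ℤ) = (cl r {v}).card - D.card := by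
          rw [hcl1, card_sdiff_of_subset hDsub]
          have := card_le_card hDsub
          omega
        -- the second ball
        set Q := cl r D \ (X ∪ cl r T) with hQ
        have hcl2 : cl r' (cl r' {v}) ⊆ cl r (cl r {v}) \ Q := by
          intro y hy
          rw [mem_sdiff]
          refine ⟨hsub _ (cl_mono (hsub _) hy) , ?_⟩
          rw [hQ, mem_sdiff, mem_union]
          rintro ⟨_, h2⟩
          apply h2
          obtain ⟨z, hz, hzy⟩ := mem_cl.1 hy
          rw [hcl1, mem_sdiff] at hz
          have hz' : z ∈ X ∪ T := by
            by_contra h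
            exact hz.2 (by rw [hD, mem_sdiff]; exact ⟨hz.1, h⟩)
          rw [mem_union] at hz'
          rcases hz' with hzX | hzT
          · rcases hzy with rfl | h
            · exact Or.inl hzX
            · have := h.2 hzX
              rw [mem_union] at this
              exact this.imp id fun h => subset_cl r T h
          · right
            exact mem_cl.2 ⟨z, hzT, hzy.imp id fun h => h.1⟩
        have hQsub : Q ⊆ cl r (cl r {v}) := by
          intro y hy
          rw [hQ, mem_sdiff] at hy
          exact cl_mono hDsub hy.1
        have hcard2 : ((cl r' (cl r' {v})).card : ℤ) ≤ (cl r (cl r {v})).card - Q.card := by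
          have h1 := card_le_card hcl2
          rw [card_sdiff_of_subset hQsub] at h1
          have := card_le_card hQsub
          omega
        have hmin' := hT (T ∪ D) (union_subset hTL hDL)
        have hcard3 : ((T ∪ D).card : ℤ) = T.card + D.card := by
          exact_mod_cast card_union_of_disjoint hDT
        have hcard4 : ((cl r (T ∪ D) \ X).card : ℤ) = (cl r T \ X).card + Q.card := by
          have h1 : cl r (T ∪ D) \ X = (cl r T \ X) ∪ Q := by
            rw [cl_union, hQ]
            ext y
            simp only [mem_sdiff, mem_union]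
            tauto
          have h2 : Disjoint (cl r T \ X) Q := by
            rw [disjoint_left]
            intro y hy hy'
            rw [hQ, mem_sdiff, mem_union, not_or] at hy'
            rw [mem_sdiff] at hy
            exact hy'.2.2 hy.1
          rw [h1]
          exact_mod_cast card_union_of_disjoint h2
        simp only [hd] at hmin'
        linarith
      · have hcl1 : cl r' {v} = cl r {v} := by
          ext y
          simp only [mem_cl, mem_singleton, exists_eq_left, hr']
          constructor
          · rintro (h | h)
            · exact Or.inl h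
            · exact Or.inr h.1
          · rintro (h | h)
            · exact Or.inl h
            · exact Or.inr ⟨h, fun h' => absurd h' hvX⟩
        rw [hcl1]
        have h2 : ((cl r' (cl r {v})).card : ℤ) ≤ (cl r (cl r {v})).card := by
          exact_mod_cast card_le_card (hsub _)
        linarith
    have hall := hmin r' (fun u v h => h.1) hCE
    refine Subset.antisymm hTL ?_
    intro y hy
    rw [hL, mem_sdiff] at hy
    obtain ⟨x, hx, h⟩ := mem_cl.1 hy.1
    rcases h with rfl | h
    · exact absurd hx hy.2
    · have := (hall x y h).2 hx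
      rw [mem_union] at this
      exact this.resolve_left hy.2
  -- conclusion
  have hLne : L ≠ ∅ := by
    intro h
    apply hX
    rw [hL, sdiff_eq_empty_iff_subset] at h
    exact Subset.antisymm h (subset_cl r X)
  have hdL : d L < d ∅ := by
    by_contra hcon
    push Not at hcon
    obtain ⟨T, hT, hTmin⟩ := exists_min_image L.powerset d ⟨∅, empty_mem_powerset L⟩
    rw [mem_powerset] at hT
    have hT' := key T hT fun T' h => hTmin T' (mem_powerset.2 h)
    have := key ∅ (empty_subset L) fun T' h => by
      have := hTmin T' (mem_powerset.2 h)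
      rw [hT'] at this
      linarith
    exact hLne this.symm
  have hcl : cl r (cl r X) \ X = cl r L \ X := by
    ext y
    simp only [mem_sdiff, and_congr_left_iff]
    intro hy
    constructor
    · intro h
      obtain ⟨z, hz, hzy⟩ := mem_cl.1 h
      by_cases hzX : z ∈ X
      · have hyc : y ∈ cl r X := mem_cl.2 ⟨z, hzX, hzy⟩
        exact subset_cl r L (by rw [hL, mem_sdiff]; exact ⟨hyc, hy⟩)
      · exact mem_cl.2 ⟨z, by rw [hL, mem_sdiff]; exact ⟨hz, hzX⟩, hzy⟩
    · intro h
      exact cl_mono sdiff_subset h
  have h1 : ((cl r L \ X).card : ℤ) = (cl r (cl r X)).card - X.card := by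
    rw [← hcl, card_sdiff_of_subset ((subset_cl r X).trans (subset_cl r _))]
    have := card_le_card ((subset_cl r X).trans (subset_cl r (cl r X)))
    omega
  have h2 : (L.card : ℤ) = (cl r X).card - X.card := by
    rw [hL, card_sdiff_of_subset (subset_cl r X)]
    have := card_le_card (subset_cl r X)
    omega
  have h3 : d ∅ ≤ 0 := by
    simp only [hd]
    have : cl r (∅ : Finset V) = ∅ := by
      ext y; simp [mem_cl]
    rw [this]; simp
  simp only [hd] at hdL h3
  unfold ee
  linarith

end Vale.Agent.P038.H923
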