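import Vale.Agent.P038.MathlibUsed

/-!
# The row lemma (LK+): a submodular function, a family of intervals `[B a, Z a]`, intersections
-/

namespace Vale.Agent.P038.H923

open Finset
open Classical

variable {V : Type*} [Fintype V]

/-- Intersection of the sets `B a`, `a ∈ R`. -/
noncomputable def cap (R : Finset V) (B : V → Finset V) : Finset V :=
  univ.filter fun x => ∀ a ∈ R, x ∈ B a

theorem mem_cap {R : Finset V} {B : V → Finset V} {x : V} :
    x ∈ cap R B ↔ ∀ a ∈ R, x ∈ B a := by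
  simp [cap]

theorem cap_mono {R : Finset V} {B S : V → Finset V} (h : ∀ a, B a ⊆ S a) :
    cap R B ⊆ cap R S := by
  intro x hx
  rw [mem_cap] at hx ⊢
  exact fun a ha => h a (hx a ha)

/-- Claim (A), general form. -/
theorem inter_cap_le {e : Finset V → ℤ}
    (hsub : ∀ S T, e (S ∪ T) + e (S ∩ T) ≤ e S + e T) {B Z : V → Finset V}
    (hP : ∀ a T, B a ⊆ T → T ⊆ Z a → e (B a) ≤ e T) (hBZ : ∀ a, B a ⊆ Z a)
    (W : Finset V) (R : Finset V) (hW : ∀ a ∈ R, W ⊆ Z a) :
    e (W ∩ cap R B) ≤ e W := by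
  induction R using Finset.induction_on with
  | empty =>
    have : W ∩ cap ∅ B = W := by
      ext x; simp [mem_cap]
    rw [this]
  | insert a R ha ih =>
    have ih' := ih fun a' ha' => hW a' (mem_insert_of_mem ha')
    set W' := W ∩ cap R B with hW'
    have heq : W ∩ cap (insert a R) B = W' ∩ B a := by
      ext x
      simp only [hW', mem_inter, mem_cap, mem_insert, forall_eq_or_imp]
      tauto
    have h1 := hsub W' (B a)
    have h2 : e (B a) ≤ e (W' ∪ B a) := by
      refine hP a _ subset_union_right (union_subset ?_ (hBZ a))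
      exact inter_subset_left.trans (hW a (mem_insert_self a R))
    rw [heq]
    linarith

theorem cap_le {e : Finset V → ℤ}
    (hsub : ∀ S T, e (S ∪ T) + e (S ∩ T) ≤ e S + e T) {B Z : V → Finset V}
    (hP : ∀ a T, B a ⊆ T → T ⊆ Z a → e (B a) ≤ e T) (hBZ : ∀ a, B a ⊆ Z a)
    (W : Finset V) (R : Finset V) (hBW : cap R B ⊆ W) (hW : W ⊆ cap R Z) :
    e (cap R B) ≤ e W := by
  have h := inter_cap_le hsub hP hBZ W R fun a ha x hx => (mem_cap.1 (hW hx)) a ha
  rwa [inter_eq_right.2 hBW] at h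

/-- One step: vertex `x` is processed. -/
theorem step {e : Finset V → ℤ}
    (hsub : ∀ S T, e (S ∪ T) + e (S ∩ T) ≤ e S + e T) {B Z : V → Finset V}
    (hP : ∀ a T, B a ⊆ T → T ⊆ Z a → e (B a) ≤ e T) (hBZ : ∀ a, B a ⊆ Z a)
    (Nb : V → Finset V) (x : V) (m : V → V)
    (hm : ∀ a, x ∈ Z a → x ∉ B a → a ∈ Nb (m a) ∧ ∀ a' ∈ Nb (m a), x ∈ Z a')
    (hinj : ∀ a a', x ∈ Z a → x ∉ B a → x ∈ Z a' → x ∉ B a' → m a = m a' → a = a') :
    ∃ S : V → Finset V, (∀ a, B a ⊆ S a) ∧ (∀ a, S a ⊆ Z a) ∧ (∀ a, x ∈ Z a → x ∈ S a) ∧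
      (∀ a T, S a ⊆ T → T ⊆ Z a → e (S a) ≤ e T) ∧
      ∑ a, (e (S a) - e (B a)) ≤ ∑ b, (e (cap (Nb b) S) - e (cap (Nb b) B)) := by
  have hex : ∀ a, ∃ S : Finset V, B a ⊆ S ∧ S ⊆ Z a ∧ (x ∈ Z a → x ∈ S) ∧
      ∀ T, B a ⊆ T → (x ∈ Z a → x ∈ T) → T ⊆ Z a → e S ≤ e T := by
    intro a
    have hne : (univ.filter fun T : Finset V =>
        B a ⊆ T ∧ (x ∈ Z a → x ∈ T) ∧ T ⊆ Z a).Nonempty :=
      ⟨Z a, by simp [hBZ a]⟩
    obtain ⟨S, hS, hmin⟩ := exists_min_image _ e hne
    simp only [mem_filter, mem_univ, true_and] at hS hmin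
    exact ⟨S, hS.1, hS.2.2, hS.2.1, fun T h1 h2 h3 => hmin T ⟨h1, h2, h3⟩⟩
  choose S hBS hSZ hxS hQ using hex
  refine ⟨S, hBS, hSZ, hxS, ?_, ?_⟩
  · intro a T h1 h2
    exact hQ a T ((hBS a).trans h1) (fun h => h1 (hxS a h)) h2
  · set g : V → ℤ := fun b => e (cap (Nb b) S) - e (cap (Nb b) B) with hg
    have hg0 : ∀ b, 0 ≤ g b := by
      intro b
      have := cap_le hsub hP hBZ (cap (Nb b) S) (Nb b) (cap_mono hBS) (cap_mono hSZ)
      simp only [hg]
      linarith
    set A : Finset V := univ.filter fun a => x ∈ Z a ∧ x ∉ B a with hA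
    have hzero : ∀ a, a ∉ A → e (S a) - e (B a) = 0 := by
      intro a ha
      have h1 : e (S a) ≤ e (B a) := by
        refine hQ a (B a) (Subset.refl _) ?_ (hBZ a)
        intro hx
        by_contra hx'
        exact ha (by simp [hA, hx, hx'])
      have h2 : e (B a) ≤ e (S a) := hP a _ (hBS a) (hSZ a)
      linarith
    have hle : ∀ a ∈ A, e (S a) - e (B a) ≤ g (m a) := by
      intro a ha
      simp only [hA, mem_filter, mem_univ, true_and] at ha
      obtain ⟨hmem, hall⟩ := hm a ha.1 ha.2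
      set R := Nb (m a) with hR
      have hxX : x ∈ cap R S := mem_cap.2 fun a' ha' => hxS a' (hall a' ha')
      have hXS : cap R S ⊆ S a := fun y hy => (mem_cap.1 hy) a hmem
      have h1 : e (S a) ≤ e (B a ∪ cap R S) := by
        refine hQ a _ subset_union_left (fun _ => mem_union_right _ hxX) ?_
        exact union_subset (hBZ a) (hXS.trans (hSZ a))
      have h2 := hsub (B a) (cap R S)
      have h3 : e (cap R B) ≤ e (B a ∩ cap R S) := by
        refine cap_le hsub hP hBZ _ R ?_ ?_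
        · intro y hy
          exact mem_inter.2 ⟨(mem_cap.1 hy) a hmem, cap_mono hBS hy⟩
        · exact inter_subset_right.trans (cap_mono hSZ)
      simp only [hg, ← hR]
      linarith
    calc ∑ a, (e (S a) - e (B a)) = ∑ a ∈ A, (e (S a) - e (B a)) := by
          symm
          exact sum_subset (subset_univ A) fun a _ ha => hzero a ha
      _ ≤ ∑ a ∈ A, g (m a) := sum_le_sum hle
      _ = ∑ b ∈ A.image m, g b := by
          rw [sum_image]
          intro a ha a' ha' h
          simp only [hA, coe_filter, mem_univ, true_and, Set.mem_ofPred_eq] at ha ha'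
          exact hinj a a' ha.1 ha.2 ha'.1 ha'.2 h
      _ ≤ ∑ b, g b := sum_le_sum_of_subset_of_nonneg (subset_univ _) fun b _ _ => hg0 b

/-- The row lemma (LK+). -/
theorem row_lemma {e : Finset V → ℤ}
    (hsub : ∀ S T, e (S ∪ T) + e (S ∩ T) ≤ e S + e T) {Z : V → Finset V}
    (Nb : V → Finset V) (m : V → V → V) (K : Finset V) :
    ∀ B : V → Finset V, (∀ a T, B a ⊆ T → T ⊆ Z a → e (B a) ≤ e T) → (∀ a, B a ⊆ Z a) →
    (∀ x a, x ∈ Z a → x ∉ B a → a ∈ Nb (m x a) ∧ ∀ a' ∈ Nb (m x a), x ∈ Z a') →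
    (∀ x a a', x ∈ Z a → x ∉ B a → x ∈ Z a' → x ∉ B a' → m x a = m x a' → a = a') →
    (∀ x, x ∉ K → ∀ a, x ∈ Z a → x ∈ B a) →
    ∑ a, (e (Z a) - e (B a)) ≤ ∑ b, (e (cap (Nb b) Z) - e (cap (Nb b) B)) := by
  induction K using Finset.induction_on with
  | empty =>
    intro B _ hBZ _ _ hK
    have : B = Z := by
      funext a
      exact Subset.antisymm (hBZ a) fun x hx => hK x (notMem_empty x) a hx
    subst this
    simp
  | insert x K hx ih =>
    intro B hP hBZ hm hinj hK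
    obtain ⟨S, hBS, hSZ, hxS, hPS, hsum⟩ :=
      step hsub hP hBZ Nb x (m x) (fun a => hm x a) (fun a a' => hinj x a a')
    have := ih S hPS hSZ (fun y a h1 h2 => hm y a h1 fun h => h2 (hBS a h))
      (fun y a a' h1 h2 h3 h4 => hinj y a a' h1 (fun h => h2 (hBS a h)) h3
        (fun h => h4 (hBS a' h)))
      (fun y hy a hya => by
        by_cases hyx : y = x
        · subst hyx; exact hxS a hya
        · refine hBS a (hK y ?_ a hya)
          simp [hyx, hy])
    have e1 : ∑ a, (e (Z a) - e (B a)) = ∑ a, (e (Z a) - e (S a)) + ∑ a, (e (S a) - e (B a)) := by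
      rw [← sum_add_distrib]
      exact sum_congr rfl fun a _ => by ring
    have e2 : ∑ b, (e (cap (Nb b) Z) - e (cap (Nb b) B)) =
        ∑ b, (e (cap (Nb b) Z) - e (cap (Nb b) S)) +
          ∑ b, (e (cap (Nb b) S) - e (cap (Nb b) B)) := by
      rw [← sum_add_distrib]
      exact sum_congr rfl fun a _ => by ring
    rw [e1, e2]
    exact add_le_add this hsum

end Vale.Agent.P038.H923
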